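import Vale.Agent.P213.Main.Model
import Vale.Agent.P213.KQ.Export
import Vale.Agent.P213.KQ.Ex.Infty

/-!
P213 Main: the simplicial inputs of the transfer.
-/

open CategoryTheory

namespace Vale.Agent.P213

theorem ssetInputs : SSetInputs where
  two := weakEq_two
  retracts := weakEq_retracts
  of_trivFib _ _ p hp := weakEq_of_trivFib p hp
  trivFib _ _ p hp hw := trivFib_of_weakEq p hp hw
  transfinite := weakEq_transfinite
  exUnit := ⟨exUnit, weakEq_exUnit⟩

end Vale.Agent.P213
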