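import Vale.Agent.P213.Main.Model
import Vale.Agent.P213.Cat.Adj
import Vale.Agent.P213.Cat.Filtered
import Vale.Agent.P213.Step.Main
import Vale.Agent.P213.Sd.Horn
import Vale.Agent.P213.KQ.Export
import Vale.Agent.P213.Collage.Nerve
import Vale.Agent.P213.Main.SSet

/-!
P213 Main: Q1 from the cylinder, the unit and the simplicial replacement.
-/

open CategoryTheory Limits Simplicial

noncomputable section

namespace Vale.Agent.P213

/-- The statement of the collage. -/
def CollageStatement (n : ℕ∞) : Prop :=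
  ∀ {E : Type} [PartialOrder E] [Finite E] {A : Set E}
    (_ : IsDwyer A) (h : A ⊆ up A) {C D P : NCat n} (g : catO n A ⟶ C) (i : C ⟶ D)
    (j : catO n (up A) ⟶ D) (_ : IsPushout g (catOMap n (setIncl h)) i j) (i' : D ⟶ P)
    (j' : catO n E ⟶ P) (_ : IsPushout j (catOMap n (setVal (up A))) i' j'),
    IsPushout ((nerveN n).map j) ((nerveN n).map (catOMap n (setVal (up A))))
        ((nerveN n).map i') ((nerveN n).map j') ∧
      Mono ((nerveN n).map (catOMap n (setVal (up A))))

theorem horn_stable (n : ℕ∞) {c : CylData} (T : TransData c) (h : SSetInputs)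
    (hcol : CollageStatement n)
    (hu : ∀ K, weakEq ((adjQ (cAdj n)).unit.app K)) (m : ℕ) (k : Fin (m + 2)) :
    Stable n ((leftQ n (cN n)).map (SSet.horn.{0} (m + 1) k).ι) := by
  haveI := hasColimits_nCat n
  haveI := h.two
  haveI := finite_chains (Fin (m + 1 + 1))
  haveI : Finite (P2 (m + 1)) := finite_chains _
  obtain ⟨A, hA, ⟨e⟩⟩ := sd2_horn m k
  have hincl : A ⊆ up A := fun a ha => ⟨a, ha, le_rfl⟩
  have hW : W n ((leftQ n (cN n)).map (SSet.horn.{0} (m + 1) k).ι) := by
    refine (h.exTwo_iff _).1 (weakEq.of_precomp ((adjQ (cAdj n)).unit.app _) _ (hu _) ?_)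
    have e' : (SSet.horn.{0} (m + 1) k).ι ≫ (adjQ (cAdj n)).unit.app _ =
        (adjQ (cAdj n)).unit.app _ ≫ exTwo.map ((nerveN n).map
          ((leftQ n (cN n)).map (SSet.horn.{0} (m + 1) k).ι)) :=
      (adjQ (cAdj n)).unit.naturality _
    rw [← e']
    exact weakEq.comp_mem _ _ weakEq_horn (hu _)
  let e' : Arrow.mk ((leftQ n (cN n)).map (SSet.horn.{0} (m + 1) k).ι) ≅
      Arrow.mk (catOMap n (setVal A)) := (cN n).mapArrow.mapIso e
  have hcomp : catOMap n (setVal A) =
      catOMap n (setIncl hincl) ≫ catOMap n (setVal (up A)) :=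
    (mapO_comp (L := cN n) (setIncl hincl) (setVal (up A))).symm
  have hW' : W n (catOMap n (setVal A)) := (weakEq.arrow_mk_iso_iff
    ((nerveN n).mapArrow.mapIso e')).1 hW
  have hS : Stable n (catOMap n (setVal A)) := by
    rw [hcomp] at hW' ⊢
    exact stable_comp_collage n (fun _ _ _ _ f g f' g' hp hm hf => by
        haveI := hm; exact weakEq_pushout f g f' g' hp hf)
      (up_stable_gen (cAdj n) T hA hincl)
      (fun _ _ _ g i j i' j' hD hP => hcol hA hincl g i j hD i' j' hP) hW'
  haveI := stable_cobase n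
  exact ((stableMaps n).arrow_mk_iso_iff e').2 hS

theorem q1_of_inputs {c : CylData} (T : TransData c)
    (hu : ∀ n : ℕ∞, 1 ≤ n → ∀ K, weakEq ((adjQ (cAdj n)).unit.app K)) : Q1 := fun n hn => by
  haveI := hasColimits_nCat n
  haveI := hasLimits_nCat n
  exact ⟨isModelStructure_of_inputs (cAdj n) (nerveN_filtered n) ssetInputs
    (horn_stable n T ssetInputs (fun hA h => nerve_collage n hn hA h) (hu n hn)),
    isQuillenEquivalence_of_inputs (cAdj n) ssetInputs (hu n hn)⟩

end Vale.Agent.P213
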