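import Mathlib

/-!
P213 Main: a class of morphisms stable under cobase change and transfinite composition is stable
under coproducts (well-order the index set and replace one summand at a time).
-/

open CategoryTheory Limits Opposite

noncomputable section

namespace Vale.Agent.P213

variable {C : Type 1} [Category.{0} C] {I : Type} [LinearOrder I] {A B : I → C}
  (f : ∀ i, A i ⟶ B i)

/-- Whether the summand `i` has been replaced at stage `j`. -/
def stage (i : I) : WithTop I →o Fin 2 where
  toFun j := if (i : WithTop I) < j then 1 else 0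
  monotone' a b hab := by
    show (if (i : WithTop I) < a then (1 : Fin 2) else 0) ≤ if (i : WithTop I) < b then 1 else 0
    split_ifs with h1 h2
    · exact le_rfl
    · exact absurd (h1.trans_le hab) h2
    · exact Fin.zero_le _
    · exact le_rfl

theorem stage_of_lt {i : I} {j : WithTop I} (h : (i : WithTop I) < j) : stage i j = 1 := if_pos h

theorem stage_of_not_lt {i : I} {j : WithTop I} (h : ¬ (i : WithTop I) < j) : stage i j = 0 :=
  if_neg h

/-- The summand `i` at all stages. -/
def summand (i : I) : WithTop I ⥤ C := (stage i).monotone.functor ⋙ ComposableArrows.mk₁ (f i)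

variable [HasColimitsOfSize.{0, 0} C]

/-- The stages. -/
def stages : WithTop I ⥤ C where
  obj j := ∐ fun i => (summand f i).obj j
  map {j k} φ := Limits.Sigma.map fun i => (summand f i).map φ
  map_id j := Limits.Sigma.hom_ext _ _ fun i => by simp
  map_comp φ ψ := Limits.Sigma.hom_ext _ _ fun i => by simp

/-- The inclusion of a summand at a stage. -/
def stagesι (i : I) (j : WithTop I) : (summand f i).obj j ⟶ (stages f).obj j :=
  Sigma.ι (fun i => (summand f i).obj j) i

/-- Maps out of a stage. -/
def stagesDesc {j : WithTop I} {X : C} (g : ∀ i, (summand f i).obj j ⟶ X) :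
    (stages f).obj j ⟶ X :=
  Limits.Sigma.desc g

@[reassoc (attr := simp)]
theorem stagesι_desc {j : WithTop I} {X : C} (g : ∀ i, (summand f i).obj j ⟶ X) (i : I) :
    stagesι f i j ≫ stagesDesc f g = g i :=
  Limits.Sigma.ι_desc _ _

theorem stages_hom_ext {j : WithTop I} {X : C} {g g' : (stages f).obj j ⟶ X}
    (h : ∀ i, stagesι f i j ≫ g = stagesι f i j ≫ g') : g = g' :=
  Limits.Sigma.hom_ext _ _ h

@[reassoc]
theorem stages_ι {j k : WithTop I} (φ : j ⟶ k) (i : I) :
    stagesι f i j ≫ (stages f).map φ = (summand f i).map φ ≫ stagesι f i k :=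
  Limits.Sigma.ι_map (f := fun i => (summand f i).obj j) (fun i => (summand f i).map φ) i

theorem summand_map_isIso {i : I} {j k : WithTop I} (φ : j ⟶ k) (h : stage i j = stage i k) :
    IsIso ((summand f i).map φ) := by
  show IsIso ((ComposableArrows.mk₁ (f i)).map ((stage i).monotone.functor.map φ))
  have : IsIso ((stage i).monotone.functor.map φ) := by
    rw [show (stage i).monotone.functor.map φ = eqToHom
      (show (stage i).monotone.functor.obj j = (stage i).monotone.functor.obj k from h) from
      Subsingleton.elim _ _]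
    infer_instance
  infer_instance

theorem summand_top (i : I) : (summand f i).obj ⊤ = B i := by
  show (ComposableArrows.mk₁ (f i)).obj (stage i ⊤) = _
  rw [stage_of_lt (WithTop.coe_lt_top i)]
  rfl

theorem summand_arrow (i : I) {j k : WithTop I} (φ : j ⟶ k) (hj : stage i j = 0)
    (hk : stage i k = 1) (e : A i = (summand f i).obj j) (e' : B i = (summand f i).obj k) :
    eqToHom e ≫ (summand f i).map φ = f i ≫ eqToHom e' := by
  have key : ∀ (a b : Fin 2) (ψ : a ⟶ b), a = 0 → b = 1 →
      ∀ (e : A i = (ComposableArrows.mk₁ (f i)).obj a)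
        (e' : B i = (ComposableArrows.mk₁ (f i)).obj b),
      eqToHom e ≫ (ComposableArrows.mk₁ (f i)).map ψ = f i ≫ eqToHom e' := by
    rintro a b ψ rfl rfl e e'
    rw [show ψ = homOfLE (zero_le_one : (0 : Fin 2) ≤ 1) from Subsingleton.elim _ _]
    show 𝟙 (A i) ≫ f i = f i ≫ 𝟙 (B i)
    simp
  exact key _ _ ((stage i).monotone.functor.map φ) hj hk e e'

theorem stages_step [WellFoundedLT I] [SuccOrder (WithTop I)] (i₀ : I) :
    IsPushout ((summand f i₀).map (homOfLE (Order.le_succ (i₀ : WithTop I))))
      (stagesι f i₀ (i₀ : WithTop I))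
      (stagesι f i₀ (Order.succ (i₀ : WithTop I)))
      ((stages f).map (homOfLE (Order.le_succ (i₀ : WithTop I)))) := by
  classical
  have hstage : ∀ i, i ≠ i₀ → stage i (i₀ : WithTop I) = stage i (Order.succ (i₀ : WithTop I)) := by
    intro i hi
    by_cases h : (i : WithTop I) < (i₀ : WithTop I)
    · rw [stage_of_lt h, stage_of_lt (h.trans_le (Order.le_succ _))]
    · rw [stage_of_not_lt h, stage_of_not_lt]
      intro h'
      have := (Order.lt_succ_iff_of_not_isMax (not_isMax_iff.2 ⟨⊤, WithTop.coe_lt_top i₀⟩)).1 h'
      rcases this.lt_or_eq with h'' | h''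
      · exact h h''
      · exact hi (WithTop.coe_injective h'')
  refine IsPushout.of_isColimit' ⟨(stages_ι f _ i₀).symm⟩ (PushoutCocone.IsColimit.mk _
    (fun s => stagesDesc f fun i =>
      if h : i = i₀ then eqToHom (by rw [h]) ≫ s.inl else
        haveI := summand_map_isIso f (homOfLE (Order.le_succ (i₀ : WithTop I))) (hstage i h)
        inv ((summand f i).map (homOfLE (Order.le_succ (i₀ : WithTop I)))) ≫
          stagesι f i (i₀ : WithTop I) ≫ s.inr)
    (fun s => by simp) (fun s => ?_) (fun s m hm₁ hm₂ => ?_))
  · refine stages_hom_ext f fun i => ?_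
    rw [stages_ι_assoc]
    by_cases h : i = i₀
    · subst h; simp [s.condition]
    · simp [h]
  · refine stages_hom_ext f fun i => ?_
    by_cases h : i = i₀
    · subst h; simp [hm₁]
    · have := summand_map_isIso f (homOfLE (Order.le_succ (i₀ : WithTop I))) (hstage i h)
      rw [stagesι_desc, dif_neg h, IsIso.eq_inv_comp, ← hm₂, stages_ι_assoc]

theorem stages_continuous [WellFoundedLT I] [SuccOrder (WithTop I)] :
    (stages f).IsWellOrderContinuous := by
  classical
  refine ⟨fun m hm => ?_⟩
  have hex : ∀ i : I, ∃ k : Set.Iio m, stage i k.1 = stage i m := by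
    intro i
    by_cases h : (i : WithTop I) < m
    · refine ⟨⟨Order.succ (i : WithTop I), hm.succ_lt h⟩, ?_⟩
      rw [stage_of_lt h, stage_of_lt]
      exact Order.lt_succ_of_not_isMax (not_isMax_iff.2 ⟨m, h⟩)
    · obtain ⟨k, hk⟩ := not_isMin_iff.1 hm.not_isMin
      exact ⟨⟨k, hk⟩, by rw [stage_of_not_lt h, stage_of_not_lt fun h' => h (h'.trans hk)]⟩
  choose k hk using hex
  have hiso : ∀ i, IsIso ((summand f i).map (homOfLE (k i).2.le : (k i).1 ⟶ m)) :=
    fun i => summand_map_isIso f _ (hk i)
  have hd : ∀ (pt : C) (leg : ∀ j : Set.Iio m, (stages f).obj j.1 ⟶ pt),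
      (∀ (j j' : Set.Iio m) (h : j.1 ≤ j'.1), (stages f).map (homOfLE h) ≫ leg j' = leg j) →
      ∀ (j : Set.Iio m) (hjm : (j : WithTop I) ≤ m) (i : I),
      stagesι f i j.1 ≫ leg j = (summand f i).map (homOfLE hjm) ≫
        (haveI := hiso i; inv ((summand f i).map (homOfLE (k i).2.le : (k i).1 ⟶ m))) ≫
          stagesι f i (k i).1 ≫ leg (k i) := by
    intro pt leg hleg j hjm i
    have := hiso i
    rcases le_total j.1 (k i).1 with hjk | hjk
    · rw [show (summand f i).map (homOfLE hjm : j.1 ⟶ m) =
        (summand f i).map (homOfLE hjk : j.1 ⟶ (k i).1) ≫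
        (summand f i).map (homOfLE (k i).2.le : (k i).1 ⟶ m) by rw [← Functor.map_comp]; rfl,
        Category.assoc, IsIso.hom_inv_id_assoc, ← stages_ι_assoc, hleg j (k i) hjk]
    · have : IsIso ((summand f i).map (homOfLE hjk : (k i).1 ⟶ j.1)) := by
        refine summand_map_isIso f _ (le_antisymm ((stage i).monotone hjk) ?_)
        rw [hk i]
        exact (stage i).monotone hjm
      rw [← cancel_epi ((summand f i).map (homOfLE hjk : (k i).1 ⟶ j.1)), ← Category.assoc
        ((summand f i).map (homOfLE hjk : (k i).1 ⟶ j.1)) ((summand f i).map _),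
        ← Functor.map_comp, show (homOfLE hjk ≫ homOfLE hjm : (k i).1 ⟶ m) =
          homOfLE (k i).2.le from rfl, IsIso.hom_inv_id_assoc, ← stages_ι_assoc, hleg (k i) j hjk]
  refine ⟨{
    desc := fun s => stagesDesc f fun i =>
      @inv C _ _ _ ((summand f i).map (homOfLE (k i).2.le : (k i).1 ⟶ m)) (hiso i) ≫
        stagesι f i (k i).1 ≫ (s.ι.app (k i) : (stages f).obj (k i).1 ⟶ s.pt)
    fac := fun s j => stages_hom_ext f fun i => ?_
    uniq := fun s g hg => stages_hom_ext f fun i => ?_ }⟩
  · refine (stages_ι_assoc f (homOfLE (le_of_lt (show j.1 < m from j.2)) : j.1 ⟶ m) i _).trans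
      ((congrArg _ (stagesι_desc f _ i)).trans ?_)
    exact (hd s.pt (fun j => s.ι.app j) (fun j j' h => s.w (homOfLE h : j ⟶ j')) j
      (le_of_lt (show j.1 < m from j.2)) i).symm
  · have := hiso i
    let g' : (stages f).obj m ⟶ s.pt := g
    refine Eq.trans ?_ (stagesι_desc f _ i).symm
    refine (IsIso.eq_inv_comp ((summand f i).map (homOfLE (k i).2.le : (k i).1 ⟶ m))).2 ?_
    refine (stages_ι_assoc f (homOfLE (le_of_lt (show (k i).1 < m from (k i).2)) : (k i).1 ⟶ m)
      i g').symm.trans ?_
    exact congrArg _ (hg (k i))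

/-- Stable under cobase change and transfinite composition implies stable under coproducts. -/
theorem coproductsOfShape_of_transfinite (T : MorphismProperty C) [T.RespectsIso]
    [T.IsStableUnderCobaseChange] (hT : MorphismProperty.IsStableUnderTransfiniteComposition.{0} T)
    (I : Type) : T.IsStableUnderCoproductsOfShape I := by
  classical
  refine MorphismProperty.IsStableUnderCoproductsOfShape.mk _ _ fun A B _ _ f hf => ?_
  obtain ⟨r, hr⟩ := exists_wellOrder I
  letI : LinearOrder I := r
  haveI : WellFoundedLT I := hr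
  letI : SuccOrder (WithTop I) := SuccOrder.ofLinearWellFoundedLT _
  letI : OrderBot (WithTop I) := WellFoundedLT.toOrderBot _
  haveI := hT.isStableUnderTransfiniteCompositionOfShape (WithTop I)
  haveI := stages_continuous f
  have h0 : ∀ i, (summand f i).obj ⊥ = A i := fun i => by
    show (ComposableArrows.mk₁ (f i)).obj (stage i ⊥) = _
    rw [stage_of_not_lt not_lt_bot]
    rfl
  let tr : T.TransfiniteCompositionOfShape (WithTop I)
      ((stages f).map (homOfLE le_top : (⊥ : WithTop I) ⟶ ⊤)) :=
    { F := stages f
      isoBot := Iso.refl _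
      incl := { app := fun j => (stages f).map (homOfLE le_top)
                naturality := fun j k φ => by
                  simp only [Functor.const_obj_obj, Functor.const_obj_map, Category.comp_id,
                    ← Functor.map_comp]
                  rfl }
      isColimit := colimitOfDiagramTerminal isTerminalTop (stages f)
      fac := by simp
      map_mem := fun j hj => by
        cases j with
        | top => exact absurd isMax_top hj
        | coe i₀ =>
          refine MorphismProperty.of_isPushout (stages_step f i₀).flip ?_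
          have h1 : stage i₀ (i₀ : WithTop I) = 0 := stage_of_not_lt (lt_irrefl _)
          have h2 : stage i₀ (Order.succ (i₀ : WithTop I)) = 1 :=
            stage_of_lt (Order.lt_succ_of_not_isMax hj)
          have key : ∀ (a b : Fin 2) (φ : a ⟶ b), a = 0 → b = 1 →
              T ((ComposableArrows.mk₁ (f i₀)).map φ) := by
            rintro a b φ rfl rfl
            rw [show φ = homOfLE (zero_le_one : (0 : Fin 2) ≤ 1) from Subsingleton.elim _ _]
            exact hf i₀
          exact key _ _ ((stage i₀).monotone.functor.map (homOfLE (Order.le_succ _))) h1 h2 }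
  refine (T.arrow_mk_iso_iff (Arrow.isoMk
      ((Limits.Sigma.mapIso fun i => eqToIso (h0 i).symm) : (∐ A) ≅ (stages f).obj ⊥)
      ((Limits.Sigma.mapIso fun i => eqToIso (summand_top f i).symm) : (∐ B) ≅ (stages f).obj ⊤)
      ?_)).2
    (T.transfiniteCompositionsOfShape_le _ _ ⟨tr⟩)
  refine Limits.Sigma.hom_ext _ _ fun i => ?_
  have hb : stage i ⊥ = 0 := stage_of_not_lt not_lt_bot
  have ht : stage i ⊤ = 1 := stage_of_lt (WithTop.coe_lt_top i)
  have key := summand_arrow f i (homOfLE le_top : (⊥ : WithTop I) ⟶ ⊤) hb ht (h0 i).symm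
    (summand_top f i).symm
  simp [stages, reassoc_of% key]

end Vale.Agent.P213
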