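import Vale.Agent.P213.Main.Assembly
import Vale.Agent.P213.Cyl.Data
import Vale.Agent.P213.Cyl.Ev

/-!
P213 Main: Q1 with the cylinder discharged.
-/

noncomputable section

namespace Vale.Agent.P213

open CategoryTheory

theorem q1_of_unit (hu : ∀ {c : CylData}, TransData c → ∀ n : ℕ∞, 1 ≤ n → ∀ K,
    weakEq ((adjQ (cAdj n)).unit.app K)) : Q1 :=
  q1_of_inputs (cylTransData nerve_ev_eq) (hu (cylTransData nerve_ev_eq))

end Vale.Agent.P213
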