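import Mathlib

/-!
P213 Main: subdivision preserves finite simplicial sets.
-/

open CategoryTheory Limits Simplicial

noncomputable section

namespace Vale.Agent.P213

theorem finite_nerve (E : Type) [PartialOrder E] [Finite E] :
    SSet.Finite (CategoryTheory.nerve E : SSet.{0}) := by
  have := Fintype.ofFinite E
  have : (CategoryTheory.nerve E : SSet.{0}).HasDimensionLT (Fintype.card E) := ⟨fun i hi => by
    show _ = Set.univ
    refine Set.eq_univ_iff_forall.2 fun s => ?_
    rw [SSet.mem_degenerate_iff_notMem_nonDegenerate,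
      PartialOrder.mem_nerve_nonDegenerate_iff_injective]
    intro h
    have h' := Fintype.card_le_of_injective s.obj h
    rw [Fintype.card_fin] at h'
    change i + 1 ≤ _ at h'
    omega⟩
  refine SSet.finite_of_hasDimensionLT _ (Fintype.card E) fun i _ => ?_
  exact Finite.of_injective (fun (s : (CategoryTheory.nerve E : SSet.{0}).nonDegenerate i) => s.1.obj)
    fun s t h => Subtype.ext (ComposableArrows.ext (fun j => congrFun h j) fun j hj => Subsingleton.elim _ _)

theorem finite_chains (E : Type) [PartialOrder E] [Finite E] :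
    Finite (PartialOrder.NonemptyFiniteChains E) := by
  classical
  have := Fintype.ofFinite E
  exact Finite.of_injective PartialOrder.NonemptyFiniteChains.finset
    fun _ _ h => PartialOrder.NonemptyFiniteChains.ext h

theorem finite_sd_stdSimplex (n : SimplexCategory) :
    SSet.Finite (SSet.sd.{0}.obj (SSet.stdSimplex.{0}.obj n)) := by
  have : SSet.Finite ((SimplexCategory.sd.{0}).obj n) := by
    have : Finite (SimplexCategory.toPartOrd.{0}.obj n) :=
      inferInstanceAs (Finite (ULift (Fin (n.len + 1))))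
    have : Finite (PartOrd.nonemptyFiniteChainsFunctor.obj (SimplexCategory.toPartOrd.{0}.obj n)) :=
      finite_chains (SimplexCategory.toPartOrd.{0}.obj n)
    exact finite_nerve _
  exact SSet.finite_of_iso (SSet.stdSimplex.sdIso.app n).symm

theorem finite_sd (X : SSet.{0}) [X.Finite] : SSet.Finite (SSet.sd.{0}.obj X) := by
  obtain ⟨Y, hY, -, p, hp⟩ : ∃ (Y : SSet.{0}) (_ : SSet.Finite (SSet.sd.{0}.obj Y)) (_ : True)
      (p : Y ⟶ X), Epi p := by
    refine ⟨∐ (fun (s : X.N) ↦ Δ[s.dim]), ?_, trivial,
      Sigma.desc (fun s ↦ SSet.yonedaEquiv.symm s.simplex), ?_⟩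
    · have := fun s : X.N => finite_sd_stdSimplex ⦋s.dim⦌
      exact SSet.finite_of_iso (PreservesCoproduct.iso SSet.sd.{0} _).symm
    · simp only [← SSet.Subcomplex.range_eq_top_iff, SSet.range_eq_iSup_sigma_ι,
        colimit.ι_desc, Cofan.mk_ι_app, ← SSet.N.iSup_subcomplex_eq_top,
        SSet.Subcomplex.range_eq_ofSimplex, Equiv.apply_symm_apply]
  exact SSet.finite_of_epi (SSet.sd.{0}.map p)

theorem finitelyPresentable_sd2 (X : SSet.{0}) [X.Finite] :
    IsFinitelyPresentable.{0} ((SSet.sd.{0} ⋙ SSet.sd.{0}).obj X) := by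
  have := finite_sd X
  have : SSet.Finite ((SSet.sd.{0} ⋙ SSet.sd.{0}).obj X) := finite_sd (SSet.sd.{0}.obj X)
  infer_instance

end Vale.Agent.P213
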