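import Vale.Agent.P213.Main.Stable
import Vale.Agent.P213.Main.Finite

/-!
P213 Main: Q1 from the classical inputs, the stability of the horn images and the unit.
-/

open CategoryTheory Limits HomotopicalAlgebra Simplicial MorphismProperty

noncomputable section

namespace Vale.Agent.P213

/-- The simplicial inputs of the transfer. -/
structure SSetInputs : Prop where
  two : weakEq.HasTwoOutOfThreeProperty
  retracts : weakEq.IsStableUnderRetracts
  of_trivFib : ∀ ⦃X Y : SSet.{0}⦄ (p : X ⟶ Y), SSet.modelCategoryQuillen.I.rlp p → weakEq p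
  trivFib : ∀ ⦃X Y : SSet.{0}⦄ (p : X ⟶ Y), kanFib p → weakEq p →
    SSet.modelCategoryQuillen.I.rlp p
  transfinite : MorphismProperty.IsStableUnderTransfiniteComposition.{0}
    (weakEq ⊓ MorphismProperty.monomorphisms SSet.{0})
  exUnit : ∃ η : 𝟭 SSet.{0} ⟶ SSet.ex, ∀ X, weakEq (η.app X)

theorem SSetInputs.exTwo_iff (h : SSetInputs) {X Y : SSet.{0}} (f : X ⟶ Y) :
    weakEq (exTwo.map f) ↔ weakEq f := by
  haveI := h.two
  obtain ⟨η, hη⟩ := h.exUnit
  have key : ∀ {X Y : SSet.{0}} (f : X ⟶ Y), weakEq (SSet.ex.map f) ↔ weakEq f := by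
    intro X Y f
    have e : f ≫ η.app Y = η.app X ≫ SSet.ex.map f := η.naturality f
    refine ⟨fun hf => ?_, fun hf => ?_⟩
    · exact weakEq.of_postcomp f (η.app Y) (hη Y) (e ▸ weakEq.comp_mem _ _ (hη X) hf)
    · exact weakEq.of_precomp (η.app X) _ (hη X) (e ▸ weakEq.comp_mem _ _ hf (hη Y))
  exact (key _).trans (key f)

variable (n : ℕ∞) (c : SSet.{0} ⥤ NCat n)

/-- The left adjoint `c_n Sd²`. -/
abbrev leftQ : SSet.{0} ⥤ NCat n := SSet.sd.{0} ⋙ SSet.sd.{0} ⋙ c

/-- The generating cofibrations. -/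
def genI : MorphismProperty (NCat n) :=
  .ofHoms fun m : ℕ => (leftQ n c).map (SSet.boundary.{0} m).ι

/-- The generating trivial cofibrations. -/
def genJ : MorphismProperty (NCat n) :=
  .ofHoms fun p : Σ m : ℕ, Fin (m + 2) => (leftQ n c).map (SSet.horn.{0} (p.1 + 1) p.2).ι

variable {n c} (adj : c ⊣ nerveN n)

/-- The composite adjunction. -/
def adjQ : leftQ n c ⊣ nerveN n ⋙ exTwo :=
  (SSet.sdExAdjunction.{0}.comp SSet.sdExAdjunction.{0}).comp adj

include adj in
theorem genJ_rlp : (genJ n c).rlp = F n := by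
  ext X Y p
  constructor
  · intro hp A B i hi
    simp only [SSet.modelCategoryQuillen.J, iSup_iff] at hi
    obtain ⟨m, ⟨k⟩⟩ := hi
    exact ((adjQ adj).hasLiftingProperty_iff _ p).1 (hp _ (ofHoms.mk (⟨m, k⟩ : Σ m : ℕ, Fin (m + 2))))
  · rintro hp _ _ _ ⟨⟨m, k⟩⟩
    refine ((adjQ adj).hasLiftingProperty_iff _ p).2 (hp _ ?_)
    simp only [SSet.modelCategoryQuillen.J, iSup_iff]
    exact ⟨m, ⟨k⟩⟩

theorem kanFib_of_trivFib {X Y : SSet.{0}} (p : X ⟶ Y)
    (hp : SSet.modelCategoryQuillen.I.rlp p) : kanFib p := by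
  rw [← SSet.rlp_monomorphisms] at hp
  exact antitone_rlp SSet.modelCategoryQuillen.J_le_monomorphisms _ hp

include adj in
theorem genI_rlp (h : SSetInputs) : (genI n c).rlp = F n ⊓ W n := by
  ext X Y p
  constructor
  · intro hp
    have hI : SSet.modelCategoryQuillen.I.rlp ((nerveN n ⋙ exTwo).map p) := by
      rintro _ _ _ ⟨m⟩
      exact ((adjQ adj).hasLiftingProperty_iff _ p).1 (hp _ ⟨m⟩)
    exact ⟨kanFib_of_trivFib _ hI, (h.exTwo_iff _).1 (h.of_trivFib _ hI)⟩
  · rintro ⟨hF, hW⟩ _ _ _ ⟨m⟩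
    refine ((adjQ adj).hasLiftingProperty_iff _ p).2 ?_
    exact h.trivFib _ hF ((h.exTwo_iff _).2 hW) _ (SSet.modelCategoryQuillen.boundary_ι_mem_I m)

variable [HasLimitsOfSize.{0, 0} (NCat n)] [HasColimitsOfSize.{0, 0} (NCat n)]
  (hN : ∀ (J : Type) [SmallCategory J] [IsFiltered J], PreservesColimitsOfShape J (nerveN n))

attribute [local instance] Cardinal.fact_isRegular_aleph0 Cardinal.orderBotAleph0OrdToType

include adj hN in
theorem leftQ_presentable (X : SSet.{0}) [X.Finite] :
    IsFinitelyPresentable.{0} ((leftQ n c).obj X) := by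
  haveI := finitelyPresentable_sd2 X
  haveI : (nerveN n).IsCardinalAccessible Cardinal.aleph0.{0} :=
    ⟨fun J _ _ => by
      haveI := isFiltered_of_isCardinalFiltered J Cardinal.aleph0.{0}
      exact hN J⟩
  exact adj.isCardinalPresentable_leftAdjoint_obj Cardinal.aleph0.{0}
    ((SSet.sd.{0} ⋙ SSet.sd.{0}).obj X)

include adj hN in
theorem genI_smallObject : HasSmallObjectArgument.{0} (genI n c) :=
  ⟨Cardinal.aleph0, inferInstance, inferInstance,
    { isSmall := isSmall_ofHoms ..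
      preservesColimit := by
        rintro _ _ _ _ _ ⟨m⟩ f hf
        haveI := leftQ_presentable adj hN ((SSet.boundary.{0} m) : SSet.{0})
        infer_instance }⟩

include adj hN in
theorem genJ_smallObject : HasSmallObjectArgument.{0} (genJ n c) :=
  ⟨Cardinal.aleph0, inferInstance, inferInstance,
    { isSmall := isSmall_ofHoms ..
      preservesColimit := by
        rintro _ _ _ _ _ ⟨⟨m, k⟩⟩ f hf
        haveI := leftQ_presentable adj hN ((SSet.horn.{0} (m + 1) k) : SSet.{0})
        infer_instance }⟩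

include adj hN in
theorem genJ_llp_rlp_le (h : SSetInputs)
    (hJ : ∀ (m : ℕ) (k : Fin (m + 2)),
      Stable n ((leftQ n c).map (SSet.horn.{0} (m + 1) k).ι)) :
    (genJ n c).rlp.llp ≤ W n := by
  haveI := genJ_smallObject adj hN
  haveI := stable_cobase n
  haveI := stable_transfinite n hN h.transfinite
  haveI : IsStableUnderCoproducts.{0} (stableMaps n) :=
    ⟨fun I => stable_coproducts n hN h.transfinite I⟩
  haveI := h.retracts
  haveI : (W n).IsStableUnderRetracts :=
    ⟨fun r hw => weakEq.of_retract (r.map (nerveN n)) hw⟩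
  rw [llp_rlp_of_hasSmallObjectArgument.{0}, retracts_le_iff]
  refine le_trans (b := stableMaps n) ?_ (fun _ _ _ hf => (weakEq_of_stable n hf).1)
  rw [transfiniteCompositions_le_iff, pushouts_le_iff, coproducts_le_iff]
  rintro _ _ _ ⟨⟨m, k⟩⟩
  exact hJ m k

include adj hN in
theorem trivialCof_eq (h : SSetInputs)
    (hJ : ∀ (m : ℕ) (k : Fin (m + 2)),
      Stable n ((leftQ n c).map (SSet.horn.{0} (m + 1) k).ι)) :
    Cof n ⊓ W n = (genJ n c).rlp.llp := by
  haveI := genJ_smallObject adj hN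
  haveI := h.two
  haveI : (W n).HasTwoOutOfThreeProperty := inferInstanceAs
    (weakEq.inverseImage (nerveN n)).HasTwoOutOfThreeProperty
  refine le_antisymm ?_ (le_inf ?_ (genJ_llp_rlp_le adj hN h hJ))
  · rintro A B f ⟨hC, hW⟩
    have fac := factorizationData (genJ n c).rlp.llp (genJ n c).rlp f
    have hp : F n fac.p := genJ_rlp adj ▸ fac.hp
    have hi : W n fac.i := genJ_llp_rlp_le adj hN h hJ _ fac.hi
    have hpW : W n fac.p := (W n).of_precomp fac.i fac.p hi (fac.fac.symm ▸ hW)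
    have := hC fac.p ⟨hp, hpW⟩
    exact of_retract (RetractArrow.ofLeftLiftingProperty fac.fac) fac.hi
  · rw [genJ_rlp adj]
    exact antitone_llp inf_le_left

include adj hN in
theorem isModelStructure_of_inputs (h : SSetInputs)
    (hJ : ∀ (m : ℕ) (k : Fin (m + 2)),
      Stable n ((leftQ n c).map (SSet.horn.{0} (m + 1) k).ι)) :
    IsModelStructure n := by
  letI cF : CategoryWithFibrations (NCat n) := ⟨F n⟩
  letI cC : CategoryWithCofibrations (NCat n) := ⟨Cof n⟩
  letI cW : CategoryWithWeakEquivalences (NCat n) := ⟨W n⟩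
  haveI := h.two
  haveI : (weakEquivalences (NCat n)).HasTwoOutOfThreeProperty := inferInstanceAs
    (weakEq.inverseImage (nerveN n)).HasTwoOutOfThreeProperty
  haveI := genI_smallObject adj hN
  haveI := genJ_smallObject adj hN
  have eI : (genI n c).rlp.llp = Cof n := congrArg MorphismProperty.llp (genI_rlp adj h)
  haveI : IsWeakFactorizationSystem (cofibrations (NCat n)) (trivialFibrations (NCat n)) := by
    show IsWeakFactorizationSystem (Cof n) (F n ⊓ W n)
    rw [← eI, ← genI_rlp adj h]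
    exact ⟨rlp_llp_rlp _, rfl, inferInstance⟩
  haveI : IsWeakFactorizationSystem (trivialCofibrations (NCat n)) (fibrations (NCat n)) := by
    show IsWeakFactorizationSystem (Cof n ⊓ W n) (F n)
    rw [trivialCof_eq adj hN h hJ, ← genJ_rlp adj]
    exact ⟨rlp_llp_rlp _, rfl, inferInstance⟩
  exact ⟨ModelCategory.mk' _, rfl, rfl, rfl⟩

include adj in
theorem isQuillenEquivalence_of_inputs (h : SSetInputs)
    (hu : ∀ K, weakEq ((adjQ adj).unit.app K)) : IsQuillenEquivalence n := by
  refine ⟨c, adj, fun _ _ _ hp => hp, fun _ _ p hp => (h.exTwo_iff _).2 hp.2, ?_⟩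
  simp only [MorphismProperty.arrow_mk_mem_toSet_iff]
  intro K X T hT _ g
  haveI := h.two
  rw [show ((SSet.sdExAdjunction.{0}.comp SSet.sdExAdjunction.{0}).comp adj).homEquiv K X g =
      (adjQ adj).unit.app K ≫ exTwo.map ((nerveN n).map g) from Adjunction.homEquiv_unit _ _ _ _]
  exact ⟨fun hg => weakEq.comp_mem _ _ (hu K) ((h.exTwo_iff _).2 hg),
    fun hg => (h.exTwo_iff _).1 (weakEq.of_precomp _ _ (hu K) hg)⟩

end Vale.Agent.P213
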