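import Vale.Agent.P213.Main.Final
import Vale.Agent.P213.Unit.Main

/-!
P213, Q1: the Thomason model structure on n-Cat for every n and omega.
-/

noncomputable section

namespace Vale.Agent.P213

open CategoryTheory

theorem q1 : Q1 :=
  q1_of_unit fun T n hn K => unit_weakEq_gen T n hn K

end Vale.Agent.P213
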