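import Vale.Agent.P213.Defs
import Vale.Agent.P213.Main.Coproducts

/-!
P213 Main: the stable maps are closed under cobase change, transfinite composition and coproducts.
-/

open CategoryTheory Limits

noncomputable section

namespace Vale.Agent.P213

section General

variable {C : Type*} [Category C]

/-- Pushing a colimit cocone out along a map of its initial object gives a colimit cocone. -/
def isColimitPushed {K : Type} [SmallCategory K] {F G : K ⥤ C} (k₀ : K) (b : ∀ k, k₀ ⟶ k)
    (hb : b k₀ = 𝟙 k₀) {Z : C} (g : F.obj k₀ ⟶ Z) (l : ∀ k, Z ⟶ G.obj k)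
    (hl : ∀ k, l k₀ ≫ G.map (b k) = l k) (η : F ⟶ G)
    (sq : ∀ k, IsPushout g (F.map (b k)) (l k) (η.app k))
    {cF : Cocone F} (hc : IsColimit cF) (cG : Cocone G) (lp : Z ⟶ cG.pt) (p : cF.pt ⟶ cG.pt)
    (hp : IsPushout g (cF.ι.app k₀) lp p) (hlp : l k₀ ≫ cG.ι.app k₀ = lp)
    (hw : ∀ k, cF.ι.app k ≫ p = η.app k ≫ cG.ι.app k) : IsColimit cG where
  desc s := hp.desc (l k₀ ≫ s.ι.app k₀) (hc.desc ((Cocone.precompose η).obj s)) (by
    rw [← Category.assoc, (sq k₀).w, hb, F.map_id, Category.id_comp, hc.fac]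
    rfl)
  fac s k := by
    refine (sq k).hom_ext ?_ ?_
    · have h1 : l k ≫ cG.ι.app k = lp := by rw [← hl k, Category.assoc, cG.w, hlp]
      have h2 : l k ≫ s.ι.app k = l k₀ ≫ s.ι.app k₀ := by rw [← hl k, Category.assoc, s.w]
      rw [← Category.assoc, h1, hp.inl_desc, h2]
    · rw [← Category.assoc, ← hw, Category.assoc, hp.inr_desc, hc.fac]
      rfl
  uniq s m hm := by
    refine hp.hom_ext ?_ ?_
    · rw [hp.inl_desc, ← hlp, Category.assoc, hm]
    · rw [hp.inr_desc]
      refine hc.hom_ext fun k => ?_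
      rw [hc.fac, ← Category.assoc, hw, Category.assoc, hm]
      rfl

variable [HasPushouts C] {J : Type} [LinearOrder J] [OrderBot J] (F : J ⥤ C) {Z : C}
  (g : F.obj ⊥ ⟶ Z)

/-- The step of the pushed tower. -/
def pushedMap {j k : J} (φ : j ⟶ k) :
    pushout g (F.map (homOfLE bot_le : ⊥ ⟶ j)) ⟶ pushout g (F.map (homOfLE bot_le : ⊥ ⟶ k)) :=
  pushout.desc (pushout.inl _ _) (F.map φ ≫ pushout.inr _ _) (by
    rw [pushout.condition, ← Category.assoc, ← F.map_comp]
    rfl)

@[reassoc (attr := simp)]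
theorem inl_pushedMap {j k : J} (φ : j ⟶ k) :
    pushout.inl _ _ ≫ pushedMap F g φ = pushout.inl g (F.map (homOfLE bot_le : ⊥ ⟶ k)) :=
  pushout.inl_desc _ _ _

@[reassoc (attr := simp)]
theorem inr_pushedMap {j k : J} (φ : j ⟶ k) :
    pushout.inr g (F.map (homOfLE bot_le : ⊥ ⟶ j)) ≫ pushedMap F g φ =
      F.map φ ≫ pushout.inr _ _ :=
  pushout.inr_desc _ _ _

/-- A tower pushed out along a map of its first object. -/
def pushed : J ⥤ C where
  obj j := pushout g (F.map (homOfLE bot_le : ⊥ ⟶ j))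
  map φ := pushedMap F g φ
  map_id j := pushout.hom_ext (by simp) (by simp)
  map_comp φ ψ := pushout.hom_ext (by simp) (by simp)

/-- The tower maps into the pushed one. -/
def toPushed : F ⟶ pushed F g where
  app _ := pushout.inr _ _
  naturality _ _ φ := (inr_pushedMap F g φ).symm

theorem pushed_sq {j k : J} (φ : j ⟶ k) :
    IsPushout ((toPushed F g).app j) (F.map φ) ((pushed F g).map φ) ((toPushed F g).app k) := by
  refine IsPushout.of_top ?_ (inr_pushedMap F g φ) (IsPushout.of_hasPushout g _)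
  show IsPushout g _ (pushout.inl g (F.map (homOfLE bot_le : ⊥ ⟶ j)) ≫ pushedMap F g φ)
    (pushout.inr g (F.map (homOfLE bot_le : ⊥ ⟶ k)))
  rw [inl_pushedMap, ← F.map_comp]
  exact IsPushout.of_hasPushout _ _

end General

variable (n : ℕ∞)

/-- The stable maps as a class. -/
def stableMaps : MorphismProperty (NCat n) := fun _ _ f => Stable n f

theorem stable_cobase : (stableMaps n).IsStableUnderCobaseChange :=
  ⟨fun sq hf _ _ h i' j' hp => hf _ i' _ (sq.paste_horiz hp)⟩

theorem weakEq_of_stable {A B : NCat n} {f : A ⟶ B} (h : Stable n f) :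
    W n f ∧ Mono ((nerveN n).map f) :=
  h (𝟙 A) f (𝟙 B) (IsPushout.of_horiz_isIso ⟨by simp⟩)

variable [HasColimitsOfSize.{0, 0} (NCat n)]

theorem stable_transfinite
    (hN : ∀ (J : Type) [SmallCategory J] [IsFiltered J], PreservesColimitsOfShape J (nerveN n))
    (htr : MorphismProperty.IsStableUnderTransfiniteComposition.{0}
      (weakEq ⊓ MorphismProperty.monomorphisms SSet.{0})) :
    MorphismProperty.IsStableUnderTransfiniteComposition.{0} (stableMaps n) := by
  refine ⟨fun J _ _ _ _ => ⟨fun X Y f ⟨tr⟩ C P g i j hp => ?_⟩⟩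
  haveI := htr.isStableUnderTransfiniteCompositionOfShape J
  haveI := hN J
  let g' := tr.isoBot.hom ≫ g
  -- the point of the cocone
  have hi : IsPushout g' (tr.incl.app ⊥) i j := by
    refine hp.of_iso tr.isoBot.symm (Iso.refl _) (Iso.refl _) (Iso.refl _) ?_ ?_ ?_ ?_
    · simp [g']
    · simp
    · simp
    · simp
  have hnat : ∀ {k l : J} (φ : k ⟶ l), tr.F.map φ ≫ tr.incl.app l = tr.incl.app k := fun φ => by
    simpa using tr.incl.naturality φ
  let incl : pushed tr.F g' ⟶ (Functor.const J).obj P :=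
    { app := fun k => pushout.desc i (tr.incl.app k ≫ j) (by
        rw [← Category.assoc, hnat]
        exact hi.w)
      naturality := fun k l φ => by
        show pushedMap tr.F g' φ ≫ pushout.desc _ _ _ = pushout.desc _ _ _ ≫ 𝟙 P
        rw [Category.comp_id]
        refine pushout.hom_ext ?_ ?_
        · rw [inl_pushedMap_assoc, pushout.inl_desc, pushout.inl_desc]
        · rw [inr_pushedMap_assoc, pushout.inr_desc, pushout.inr_desc, ← Category.assoc, hnat] }
  have hb : (pushout.inl g' (tr.F.map (homOfLE bot_le : (⊥ : J) ⟶ ⊥))) ≫ incl.app ⊥ = i :=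
    pushout.inl_desc _ _ _
  have hiso0 : IsIso (pushout.inl g' (tr.F.map (homOfLE bot_le : (⊥ : J) ⟶ ⊥))) := by
    have : IsIso (tr.F.map (homOfLE bot_le : (⊥ : J) ⟶ ⊥)) := by
      rw [show (homOfLE bot_le : (⊥ : J) ⟶ ⊥) = 𝟙 _ from rfl, tr.F.map_id]
      infer_instance
    exact (IsPushout.of_hasPushout g' _).isIso_inl_of_isIso
  have hcol : IsColimit (Cocone.mk P incl) :=
    isColimitPushed (F := tr.F) (G := pushed tr.F g') ⊥ (fun k => homOfLE bot_le) rfl g'
      (fun k => pushout.inl _ _) (fun k => inl_pushedMap tr.F g' _)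
      (toPushed tr.F g') (fun k => IsPushout.of_hasPushout _ _) tr.isColimit (Cocone.mk P incl)
      i j hi hb (fun k => (pushout.inr_desc _ _ _).symm)
  have hiio : ∀ m : J, Order.IsSuccLimit m →
      IsFiltered (Set.Iio m) := fun m hm => by
    have : Nonempty (Set.Iio m) := ⟨⟨⊥, hm.bot_lt⟩⟩
    infer_instance
  haveI : PreservesWellOrderContinuousOfShape J (nerveN n) :=
    ⟨fun m hm => by haveI := hiio m hm; exact hN _⟩
  haveI : (pushed tr.F g').IsWellOrderContinuous := ⟨fun m hm => ⟨by
    let k₀ : Set.Iio m := ⟨⊥, hm.bot_lt⟩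
    refine isColimitPushed k₀ (fun k => homOfLE (show k₀ ≤ k from bot_le (a := k.1))) rfl g'
      (fun k => pushout.inl g' _) (fun k => inl_pushedMap tr.F g' _)
      (Functor.whiskerLeft ((Set.principalSegIio m).monotone.functor) (toPushed tr.F g'))
      (fun k => IsPushout.of_hasPushout g' _) (tr.F.isColimitOfIsWellOrderContinuous m hm)
      ((Set.principalSegIio m).cocone (pushed tr.F g')) (pushout.inl g' _)
      ((toPushed tr.F g').app m) ?_ (inl_pushedMap tr.F g' _)
      (fun k => (toPushed tr.F g').naturality _)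
    exact IsPushout.of_hasPushout g' _⟩⟩
  have hstep : ∀ k : J, ¬ IsMax k →
      ((weakEq ⊓ MorphismProperty.monomorphisms SSet.{0}).inverseImage (nerveN n))
        ((pushed tr.F g').map (homOfLE (Order.le_succ k))) := fun k hk =>
    tr.map_mem k hk _ _ _ (pushed_sq tr.F g' (homOfLE (Order.le_succ k)))
  let tr' : ((weakEq ⊓ MorphismProperty.monomorphisms SSet.{0}).inverseImage
      (nerveN n)).TransfiniteCompositionOfShape J i :=
    { F := pushed tr.F g'
      isoBot := (asIso (pushout.inl g' (tr.F.map (homOfLE bot_le : (⊥ : J) ⟶ ⊥)))).symm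
      incl := incl
      isColimit := hcol
      fac := hb
      map_mem := hstep }
  exact MorphismProperty.transfiniteCompositionsOfShape_le _ _ _ ⟨tr'.map⟩

theorem stable_coproducts
    (hN : ∀ (J : Type) [SmallCategory J] [IsFiltered J], PreservesColimitsOfShape J (nerveN n))
    (htr : MorphismProperty.IsStableUnderTransfiniteComposition.{0}
      (weakEq ⊓ MorphismProperty.monomorphisms SSet.{0})) (I : Type) :
    (stableMaps n).IsStableUnderCoproductsOfShape I :=
  haveI := stable_cobase n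
  coproductsOfShape_of_transfinite _ (stable_transfinite n hN htr) I

theorem stable_comp_collage {A B E : NCat n} {u : A ⟶ B} {v : B ⟶ E}
    [weakEq.HasTwoOutOfThreeProperty]
    (hpo : ∀ ⦃A B X Y : SSet.{0}⦄ (f : A ⟶ B) (g : A ⟶ X) (f' : X ⟶ Y) (g' : B ⟶ Y),
      IsPushout g f f' g' → Mono f → weakEq f → weakEq f')
    (hu : Stable n u)
    (hcol : ∀ ⦃C D P : NCat n⦄ (g : A ⟶ C) (i : C ⟶ D) (j : B ⟶ D) (i' : D ⟶ P) (j' : E ⟶ P),
      IsPushout g u i j → IsPushout j v i' j' →
        IsPushout ((nerveN n).map j) ((nerveN n).map v) ((nerveN n).map i') ((nerveN n).map j') ∧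
          Mono ((nerveN n).map v))
    (huv : W n (u ≫ v)) : Stable n (u ≫ v) := by
  intro C P g i j hp
  have hu' := weakEq_of_stable n hu
  have hv : weakEq ((nerveN n).map v) :=
    weakEq.of_precomp ((nerveN n).map u) _ hu'.1
      (by rw [← Functor.map_comp]; exact huv)
  have hD : IsPushout g u (pushout.inl g u) (pushout.inr g u) := IsPushout.of_hasPushout _ _
  obtain ⟨hDw, hDm⟩ := hu _ _ _ hD
  have hcond : g ≫ i = u ≫ v ≫ j := by rw [hp.w, Category.assoc]
  let i' : pushout g u ⟶ P := pushout.desc i (v ≫ j) hcond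
  have hP : IsPushout (pushout.inr g u) v i' j := by
    refine IsPushout.of_top ?_ (pushout.inr_desc _ _ _) hD
    rw [show pushout.inl g u ≫ i' = i from pushout.inl_desc _ _ _]
    exact hp
  obtain ⟨hN, hm⟩ := hcol _ _ _ _ _ hD hP
  have he : i = pushout.inl g u ≫ i' := (pushout.inl_desc _ _ _).symm
  have hm' : Mono ((nerveN n).map i') :=
    MorphismProperty.of_isPushout (P := MorphismProperty.monomorphisms SSet.{0}) hN hm
  refine ⟨?_, ?_⟩
  · show weakEq ((nerveN n).map i)
    rw [he, Functor.map_comp]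
    exact weakEq.comp_mem _ _ hDw (hpo _ _ _ _ hN hm hv)
  · rw [he, Functor.map_comp]
    haveI := hDm
    exact mono_comp _ _

end Vale.Agent.P213
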